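import Vale.Agent.P130.Flat.Defs

/-!
P130, waveform: almost all points of a large box of integer vectors are primitive.
-/

namespace Vale.Agent.P130.Flat.Wave

open Finset
open Vale.Agent.P110.Ultra (Vec dotZ)

noncomputable section

/-- A vector with positive first coordinate that is not primitive has a common divisor. -/
theorem exists_common_divisor {d : ℕ} (m : Vec d) (h0 : 0 < m 0) (hp : ¬ Primitive m) :
    ∃ e : ℕ, 2 ≤ e ∧ (e : ℤ) ≤ m 0 ∧ ∀ i, (e : ℤ) ∣ m i := by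
  classical
  set g : ℤ := (univ : Finset (Fin (d + 1))).gcd m with hg
  have hdvd : ∀ i, g ∣ m i := fun i => Finset.gcd_dvd (mem_univ i)
  obtain ⟨c, hc⟩ := Finset.gcd_eq_sum_mul univ m
  have hg0 : g ≠ 0 := fun h => by
    have := hdvd 0
    rw [h, zero_dvd_iff] at this
    omega
  have hg1 : g.natAbs ≠ 1 := by
    intro h
    apply hp
    refine ⟨h0, ?_⟩
    rcases Int.natAbs_eq g with h' | h' <;> rw [h, Nat.cast_one] at h'
    · exact ⟨c, by rw [← h', hg, hc, dotZ]; exact sum_congr rfl fun i _ => mul_comm _ _⟩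
    · refine ⟨-c, ?_⟩
      have e : dotZ (-c) m = -g := by
        rw [hg, hc, dotZ, ← sum_neg_distrib]
        exact sum_congr rfl fun i _ => by simp [mul_comm]
      rw [e, h', neg_neg]
  refine ⟨g.natAbs, by have := Int.natAbs_pos.2 hg0; omega, ?_, fun i => ?_⟩
  · exact Int.le_of_dvd h0 (Int.natAbs_dvd.2 (hdvd 0))
  · exact Int.natAbs_dvd.2 (hdvd i)

/-- The multiples of `e` in an interval of length `μ`. -/
theorem card_multiples_le (a μ : ℝ) (hμ : 0 ≤ μ) {e : ℕ} (he : 0 < e) :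
    (((Icc ⌈a⌉ ⌊a + μ⌋).filter fun l : ℤ => (e : ℤ) ∣ l).card : ℝ) ≤ μ / e + 1 := by
  classical
  have heR : (0 : ℝ) < e := Nat.cast_pos.2 he
  set J := Icc ⌈a / e⌉ ⌊(a + μ) / e⌋ with hJ
  have hsub : ((Icc ⌈a⌉ ⌊a + μ⌋).filter fun l : ℤ => (e : ℤ) ∣ l) ⊆ J.image fun k => (e : ℤ) * k := by
    intro l hl
    obtain ⟨hl, k, rfl⟩ := mem_filter.1 hl
    rw [mem_Icc, Int.ceil_le, Int.le_floor] at hl
    refine mem_image.2 ⟨k, ?_, rfl⟩
    rw [hJ, mem_Icc, Int.ceil_le, Int.le_floor, div_le_iff₀ heR, le_div_iff₀ heR]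
    push_cast at hl
    constructor <;> linarith
  refine (Nat.cast_le.2 ((card_le_card hsub).trans card_image_le)).trans ?_
  rw [hJ, Int.card_Icc]
  have h1 : ((⌊(a + μ) / e⌋ + 1 - ⌈a / e⌉ : ℤ) : ℝ) ≤ μ / e + 1 := by
    push_cast
    have := Int.floor_le ((a + μ) / e)
    have := Int.le_ceil (a / e)
    linarith [add_div a μ (e : ℝ)]
  rcases le_or_gt 0 (⌊(a + μ) / e⌋ + 1 - ⌈a / e⌉) with h | h
  · have e2 : (((⌊(a + μ) / e⌋ + 1 - ⌈a / e⌉).toNat : ℕ) : ℝ) =
        ((⌊(a + μ) / e⌋ + 1 - ⌈a / e⌉ : ℤ) : ℝ) := by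
      exact_mod_cast Int.toNat_of_nonneg h
    rw [e2]
    exact h1
  · rw [Int.toNat_of_nonpos h.le, Nat.cast_zero]
    positivity

/-- The integer box of `[a, a + μ] ^ (d + 1)`. -/
def box (d : ℕ) (a μ : ℝ) : Finset (Vec d) := Fintype.piFinset fun _ => Icc ⌈a⌉ ⌊a + μ⌋

theorem mem_box {d : ℕ} {a μ : ℝ} {m : Vec d} :
    m ∈ box d a μ ↔ ∀ i, a ≤ m i ∧ (m i : ℝ) ≤ a + μ := by
  simp [box, Int.ceil_le, Int.le_floor]

theorem card_box_le (d : ℕ) (a μ : ℝ) (hμ : 0 ≤ μ) : ((box d a μ).card : ℝ) ≤ (μ + 1) ^ (d + 1) := by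
  rw [box, Fintype.card_piFinset, prod_const, card_univ, Fintype.card_fin, Nat.cast_pow]
  refine pow_le_pow_left₀ (Nat.cast_nonneg _) ?_ _
  have := card_multiples_le a μ hμ Nat.one_pos
  simpa using this

/-- Reciprocal squares from `2` sum to at most one. -/
theorem sum_inv_sq_le (E : ℕ) : ∑ e ∈ Icc 2 E, 1 / (e : ℝ) ^ 2 ≤ 1 := by
  rcases Nat.lt_or_ge E 2 with h | h
  · rw [Icc_eq_empty (by omega), sum_empty]
    norm_num
  suffices ∑ e ∈ Icc 2 E, 1 / (e : ℝ) ^ 2 ≤ 1 - 1 / (E : ℝ) by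
    have : (0 : ℝ) ≤ 1 / E := by positivity
    linarith
  induction E, h using Nat.le_induction with
  | base => norm_num
  | succ E hE ih =>
    rw [sum_Icc_succ_top (by omega)]
    have h2 : (2 : ℝ) ≤ E := by exact_mod_cast hE
    have : 1 / ((E + 1 : ℕ) : ℝ) ^ 2 + 1 / ((E + 1 : ℕ) : ℝ) ≤ 1 / (E : ℝ) := by
      push_cast
      rw [div_add_div _ _ (by positivity) (by positivity), div_le_div_iff₀ (by positivity) (by positivity)]
      nlinarith
    linarith

open Classical in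
/-- Few points of a box are imprimitive. -/
theorem card_imprimitive_le {d : ℕ} (hd : 1 ≤ d) (a μ : ℝ) (ha : 0 < a) (hμ : 4 ≤ μ) (E : ℕ)
    (hE : a + μ ≤ E) :
    (((box d a μ).filter fun m => ¬ Primitive m).card : ℝ) ≤
      μ ^ (d + 1) * ((3 / 4) ^ (d - 1) * (2 + 2 * E / μ ^ 2)) := by
  classical
  have hμ0 : 0 < μ := by linarith
  have hsub : ((box d a μ).filter fun m => ¬ Primitive m) ⊆ (Icc 2 E).biUnion fun e =>
      Fintype.piFinset fun _ : Fin (d + 1) => (Icc ⌈a⌉ ⌊a + μ⌋).filter fun l : ℤ => (e : ℤ) ∣ l := by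
    intro m hm
    obtain ⟨hm, hp⟩ := mem_filter.1 hm
    have h0 := (mem_box.1 hm) 0
    have hpos : 0 < m 0 := by
      have : (0 : ℝ) < (m 0 : ℝ) := by linarith
      exact_mod_cast this
    obtain ⟨e, he2, hem, hdvd⟩ := exists_common_divisor m hpos hp
    refine mem_biUnion.2 ⟨e, mem_Icc.2 ⟨he2, ?_⟩,
      Fintype.mem_piFinset.2 fun i => mem_filter.2 ⟨Fintype.mem_piFinset.1 hm i, hdvd i⟩⟩
    have : (m 0 : ℝ) ≤ (E : ℝ) := by linarith
    have : m 0 ≤ (E : ℤ) := by exact_mod_cast this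
    omega
  refine (Nat.cast_le.2 ((card_le_card hsub).trans card_biUnion_le)).trans ?_
  rw [Nat.cast_sum]
  have hterm : ∀ e ∈ Icc 2 E,
      ((Fintype.piFinset fun _ : Fin (d + 1) =>
        (Icc ⌈a⌉ ⌊a + μ⌋).filter fun l : ℤ => (e : ℤ) ∣ l).card : ℝ) ≤
      μ ^ (d + 1) * ((3 / 4) ^ (d - 1) * (2 * (1 / (e : ℝ) ^ 2) + 2 / μ ^ 2)) := by
    intro e he
    have he2 : 2 ≤ e := (mem_Icc.1 he).1
    have heR : (2 : ℝ) ≤ e := by exact_mod_cast he2
    rw [Fintype.card_piFinset, prod_const, card_univ, Fintype.card_fin, Nat.cast_pow]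
    refine (pow_le_pow_left₀ (Nat.cast_nonneg _)
      (card_multiples_le a μ hμ0.le (by omega : 0 < e)) _).trans ?_
    rw [show μ / e + 1 = μ * (1 / e + 1 / μ) by field_simp, mul_pow]
    refine mul_le_mul_of_nonneg_left ?_ (by positivity)
    rw [show d + 1 = (d - 1) + 2 by omega, pow_add]
    refine mul_le_mul (pow_le_pow_left₀ (by positivity) ?_ _) ?_ (by positivity) (by positivity)
    · have h1 : 1 / (e : ℝ) ≤ 1 / 2 := one_div_le_one_div_of_le (by norm_num) heR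
      have h2 : 1 / μ ≤ 1 / 4 := one_div_le_one_div_of_le (by norm_num) hμ
      linarith
    · have := add_sq_le (a := (1 / (e : ℝ))) (b := 1 / μ)
      simp only [div_pow, one_pow] at this
      refine this.trans (le_of_eq ?_)
      ring
  refine (sum_le_sum hterm).trans ?_
  rw [← mul_sum, ← mul_sum, sum_add_distrib, ← mul_sum, sum_const, nsmul_eq_mul, Nat.card_Icc]
  gcongr
  · linarith [sum_inv_sq_le E]
  · rw [mul_div_assoc']
    refine div_le_div_of_nonneg_right ?_ (by positivity)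
    have : ((E + 1 - 2 : ℕ) : ℝ) ≤ E := by exact_mod_cast (by omega : E + 1 - 2 ≤ E)
    linarith

end

end Vale.Agent.P130.Flat.Wave
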