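import Vale.Agent.P130.Flat.Wave.Space
import Vale.Agent.P130.Flat.Wave.Count

/-!
P130, waveform: the arcs, their weights and the error at one frequency.
-/

namespace Vale.Agent.P130.Flat.Wave

open Finset MeasureTheory
open scoped Real
open Vale.Agent.P110.Ultra (Vec dotR)

noncomputable section

/-- The phase of a complex number, one at zero. -/
def unit (z : ℂ) : ℂ := if z = 0 then 1 else z / (‖z‖ : ℂ)

theorem norm_unit (z : ℂ) : ‖unit z‖ = 1 := by
  rw [unit]
  split_ifs with h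
  · exact norm_one
  · rw [norm_div, Complex.norm_real, norm_norm, div_self (norm_ne_zero_iff.2 h)]

theorem conj_unit_mul (z : ℂ) : (starRingEnd ℂ) (unit z) * z = (‖z‖ : ℂ) := by
  rw [unit]
  split_ifs with h
  · simp [h]
  · rw [map_div₀, Complex.conj_ofReal, div_mul_eq_mul_div, Complex.conj_mul', sq, mul_div_assoc,
      div_self (Complex.ofReal_ne_zero.2 (norm_ne_zero_iff.2 h)), mul_one]

theorem measurable_unit : Measurable unit :=
  Measurable.ite (measurableSet_singleton 0) measurable_const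
    (measurable_id.div (Complex.continuous_ofReal.comp continuous_norm).measurable)

/-- The parameters of the waveform. -/
structure Param where
  /-- the number of aliases -/
  N : ℕ
  /-- the scale -/
  A : ℕ
  /-- the curvature -/
  δ : ℝ
  /-- the window -/
  lam : ℝ
  hN : 1 ≤ N
  hA : 4 ≤ A
  hδ : 0 < δ
  hδ1 : δ ≤ 1 / 2
  hlam : 0 < lam
  hlam1 : lam ≤ 1 / 4
  hNδ : (N : ℝ) * δ < lam
  hρ : π * δ * N / lam < 1
  hμ : 1 ≤ lam / 2 * A * δ

namespace Param

variable (p : Param) {d : ℕ}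

/-- The alias of a frequency. -/
def idx (m : Vec d) : ℕ := ⌊(m 0 : ℝ) / p.A⌋₊

/-- The left end of an arc. -/
def lo (m : Vec d) : ℝ :=
  max (p.lam / 2) (univ.sup' univ_nonempty fun i => (m i : ℝ) / (p.A * (1 + p.δ)) - p.idx m)

/-- The right end of an arc. -/
def hi (m : Vec d) : ℝ :=
  min (1 - p.lam / 2) (univ.inf' univ_nonempty fun i => (m i : ℝ) / p.A - p.idx m)

open Classical in
/-- The frequencies. -/
def freq (d : ℕ) : Finset (Vec d) :=
  (Fintype.piFinset fun _ : Fin (d + 1) => Icc (1 : ℤ) (2 * p.N * p.A)).filter fun m =>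
    Primitive m ∧ p.idx m < p.N ∧ p.lo m ≤ p.hi m

/-- The smallest curvature. -/
def mu0 : ℝ := p.lam / 2 * p.A * p.δ

/-- The relative variation of the sine on an arc. -/
def rho : ℝ := π * p.δ * p.N / p.lam

/-- The ideal modulus of a coefficient. -/
def amp (d : ℕ) (x : ℝ) (n : ℕ) : ℝ :=
  |Real.sin (π * x)| / (π * (x + n)) / Real.sqrt (p.δ * p.A * (x + n)) ^ (d + 1)

/-- The normalisation of the weights. -/
def cst (d : ℕ) : ℝ :=
  (1 + p.rho) * (1 + p.δ) * Real.sqrt (1 + p.δ) ^ (d + 1) * Real.sqrt (1 + 1 / p.mu0) ^ (d + 1)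

/-- The weight of a frequency. -/
def wt (m : Vec d) : ℝ := (p.amp d (p.lo m) (p.idx m) / p.cst d) ^ 2

/-- The arcs. -/
def arcs (d : ℕ) : Arcs d where
  S := p.freq d
  f := p.wt
  lo := p.lo
  hi := p.hi

theorem A_pos : (0 : ℝ) < p.A := by
  have : (4 : ℝ) ≤ p.A := by exact_mod_cast p.hA
  linarith

theorem mu0_pos : 0 < p.mu0 := lt_of_lt_of_le one_pos p.hμ

theorem rho_nonneg : 0 ≤ p.rho := by
  have := p.hδ
  have := p.hlam
  unfold rho
  positivity

theorem cst_pos (d : ℕ) : 0 < p.cst d := by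
  have := p.hδ
  have := p.rho_nonneg
  have := p.mu0_pos
  unfold cst
  positivity

/-- An arc consists of the frequencies at which the vector lies in the range of the chirps. -/
theorem mem_arc (m : Vec d) (θ : ℝ) :
    θ ∈ Set.Icc (p.lo m) (p.hi m) ↔ (p.lam / 2 ≤ θ ∧ θ ≤ 1 - p.lam / 2) ∧
      ∀ i, (θ + p.idx m) * p.A ≤ m i ∧ (m i : ℝ) ≤ (θ + p.idx m) * (p.A * (1 + p.δ)) := by
  have hA := p.A_pos
  have hA' : 0 < (p.A : ℝ) * (1 + p.δ) := mul_pos hA (by linarith [p.hδ])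
  simp only [lo, hi, Set.mem_Icc, max_le_iff, le_min_iff, Finset.sup'_le_iff, Finset.le_inf'_iff,
    mem_univ, forall_const, sub_le_iff_le_add, div_le_iff₀ hA', le_sub_iff_add_le, le_div_iff₀ hA]
  exact ⟨fun ⟨⟨h1, h2⟩, h3, h4⟩ => ⟨⟨h1, h3⟩, fun i => ⟨h4 i, h2 i⟩⟩,
    fun ⟨⟨h1, h3⟩, h⟩ => ⟨⟨h1, fun i => (h i).2⟩, h3, fun i => (h i).1⟩⟩

/-- The frequencies of one alias active at `θ`. -/
def active (d : ℕ) (n : ℕ) (θ : ℝ) : Finset (Vec d) :=
  open Classical in (p.freq d).filter fun m => p.idx m = n ∧ θ ∈ Set.Icc (p.lo m) (p.hi m)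

theorem mem_active {n : ℕ} {θ : ℝ} {m : Vec d} :
    m ∈ p.active d n θ ↔ m ∈ p.freq d ∧ p.idx m = n ∧ θ ∈ Set.Icc (p.lo m) (p.hi m) := by
  simp [active]

theorem active_subset_box {n : ℕ} {θ : ℝ} :
    p.active d n θ ⊆ box d ((θ + n) * p.A) (p.δ * p.A * (θ + n)) := by
  intro m hm
  obtain ⟨-, rfl, h⟩ := p.mem_active.1 hm
  obtain ⟨-, h⟩ := (p.mem_arc m θ).1 h
  refine mem_box.2 fun i => ⟨(h i).1, ?_⟩
  calc (m i : ℝ) ≤ (θ + p.idx m) * (p.A * (1 + p.δ)) := (h i).2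
    _ = _ := by ring

/-- A primitive point of the range is active. -/
theorem mem_active_of_box {n : ℕ} (hn : n < p.N) {θ : ℝ} (h1 : p.lam ≤ θ) (h2 : θ ≤ 1 - p.lam)
    {m : Vec d} (hm : m ∈ box d ((θ + n) * p.A) (p.δ * p.A * (θ + n))) (hp : Primitive m) :
    m ∈ p.active d n θ := by
  classical
  have hA := p.A_pos
  have hb := mem_box.1 hm
  have hnN : (n : ℝ) + 1 ≤ p.N := by exact_mod_cast hn
  have hθ0 : 0 < θ := lt_of_lt_of_le p.hlam h1
  have hsmall : p.δ * (θ + n) < p.lam := by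
    have := p.hNδ
    have := mul_le_mul_of_nonneg_left (show θ + n ≤ p.N by linarith [p.hlam]) p.hδ.le
    linarith
  have hidx : p.idx m = n := by
    rw [idx, Nat.floor_eq_iff (div_nonneg (by exact_mod_cast hp.1.le) hA.le), le_div_iff₀ hA, div_lt_iff₀ hA]
    constructor
    · exact le_trans (mul_le_mul_of_nonneg_right (by linarith) hA.le) (hb 0).1
    · refine lt_of_le_of_lt (hb 0).2 ?_
      calc (θ + n) * p.A + p.δ * p.A * (θ + n) = (θ + n + p.δ * (θ + n)) * p.A := by ring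
        _ < ((n : ℝ) + 1) * p.A := mul_lt_mul_of_pos_right (by linarith) hA
  have harc : θ ∈ Set.Icc (p.lo m) (p.hi m) := by
    rw [p.mem_arc, hidx]
    exact ⟨⟨by linarith [p.hlam], by linarith [p.hlam]⟩, fun i => ⟨(hb i).1,
      le_of_le_of_eq (hb i).2 (by ring)⟩⟩
  refine p.mem_active.2 ⟨mem_filter.2 ⟨Fintype.mem_piFinset.2 fun i => mem_Icc.2 ⟨?_, ?_⟩,
    hp, hidx ▸ hn, harc.1.trans harc.2⟩, hidx, harc⟩
  · have h0 : 0 < (θ + n) * (p.A : ℝ) := mul_pos (by positivity) hA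
    have : (0 : ℝ) < m i := lt_of_lt_of_le h0 (hb i).1
    have : 0 < m i := by exact_mod_cast this
    omega
  · have h0 : (m i : ℝ) ≤ 2 * p.N * p.A := by
      refine (hb i).2.trans ?_
      calc (θ + n) * p.A + p.δ * p.A * (θ + n) = (θ + n) * (1 + p.δ) * p.A := by ring
        _ ≤ p.N * 2 * p.A := by
          refine mul_le_mul_of_nonneg_right (mul_le_mul (by linarith [p.hlam]) (by linarith [p.hδ1])
            (by linarith [p.hδ]) (Nat.cast_nonneg _)) hA.le
        _ = 2 * p.N * p.A := by ring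
    exact_mod_cast h0

theorem mu0_le {θ : ℝ} (n : ℕ) (h1 : p.lam / 2 ≤ θ) : p.mu0 ≤ p.δ * p.A * (θ + n) := by
  rw [mu0, show p.lam / 2 * p.A * p.δ = p.δ * p.A * (p.lam / 2) by ring]
  refine mul_le_mul_of_nonneg_left ?_ (mul_nonneg p.hδ.le p.A_pos.le)
  have : (0 : ℝ) ≤ n := Nat.cast_nonneg n
  linarith

/-- The ideal modulus varies little along an arc. -/
theorem amp_bounds {θ : ℝ} {m : Vec d} (hm : θ ∈ Set.Icc (p.lo m) (p.hi m)) (hn : p.idx m < p.N) :
    (1 - p.rho) * p.amp d θ (p.idx m) ≤ p.amp d (p.lo m) (p.idx m) ∧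
      p.amp d (p.lo m) (p.idx m) * Real.sqrt (1 + 1 / p.mu0) ^ (d + 1) ≤
        p.cst d * p.amp d θ (p.idx m) := by
  set x := p.lo m with hx
  set n : ℝ := ((p.idx m : ℕ) : ℝ) with hn'
  have hA := p.A_pos
  have hδ := p.hδ
  have hlam := p.hlam
  have hxθ : x ≤ θ := hm.1
  have hxm : x ∈ Set.Icc (p.lo m) (p.hi m) := ⟨le_rfl, hm.1.trans hm.2⟩
  obtain ⟨⟨hθa, hθb⟩, hθ⟩ := (p.mem_arc m θ).1 hm
  obtain ⟨⟨hxa, hxb⟩, hxx⟩ := (p.mem_arc m x).1 hxm
  have hn0 : 0 ≤ n := Nat.cast_nonneg _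
  have hnN : n + 1 ≤ p.N := by rw [hn']; exact_mod_cast hn
  have hxn : 0 < x + n := by linarith
  have hθn : 0 < θ + n := by linarith
  have hratio : θ + n ≤ (1 + p.δ) * (x + n) := by
    have := (hθ 0).1.trans (hxx 0).2
    refine le_of_mul_le_mul_right (le_of_le_of_eq this ?_) hA
    ring
  have hdiff : |Real.sin (π * x) - Real.sin (π * θ)| ≤ p.rho * |Real.sin (π * θ)| := by
    have hlip : |Real.sin (π * x) - Real.sin (π * θ)| ≤ |π * x - π * θ| := Real.abs_sin_sub_sin_le _ _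
    have h1 : |π * x - π * θ| ≤ π * (p.δ * p.N) := by
      rw [← mul_sub, abs_mul, abs_of_pos Real.pi_pos, abs_sub_comm, abs_of_nonneg (by linarith)]
      refine mul_le_mul_of_nonneg_left ?_ Real.pi_pos.le
      have : p.δ * (x + n) ≤ p.δ * p.N := mul_le_mul_of_nonneg_left (by linarith) hδ.le
      linarith
    have hsin : p.lam ≤ |Real.sin (π * θ)| := by
      rcases le_or_gt θ (1 / 2) with h | h
      · have := Real.mul_le_sin (show 0 ≤ π * θ by nlinarith [Real.pi_pos])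
          (by nlinarith [Real.pi_pos])
        rw [show 2 / π * (π * θ) = 2 * θ by field_simp] at this
        exact le_trans (by linarith) (le_trans this (le_abs_self _))
      · have := Real.mul_le_sin (show 0 ≤ π * (1 - θ) by nlinarith [Real.pi_pos])
          (by nlinarith [Real.pi_pos])
        rw [show 2 / π * (π * (1 - θ)) = 2 * (1 - θ) by field_simp,
          show π * (1 - θ) = π - π * θ by ring, Real.sin_pi_sub] at this
        exact le_trans (by linarith) (le_trans this (le_abs_self _))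
    refine hlip.trans (h1.trans ?_)
    calc π * (p.δ * p.N) = p.rho * p.lam := by rw [rho]; field_simp
      _ ≤ _ := mul_le_mul_of_nonneg_left hsin p.rho_nonneg
  have hsl : (1 - p.rho) * |Real.sin (π * θ)| ≤ |Real.sin (π * x)| := by
    have := abs_sub_abs_le_abs_sub (Real.sin (π * θ)) (Real.sin (π * x))
    rw [abs_sub_comm] at hdiff
    linarith
  have hsu : |Real.sin (π * x)| ≤ (1 + p.rho) * |Real.sin (π * θ)| := by
    have := abs_sub_abs_le_abs_sub (Real.sin (π * x)) (Real.sin (π * θ))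
    linarith
  set D := d + 1
  have hμx : 0 < p.δ * p.A * (x + n) := by positivity
  have hμθ : 0 < p.δ * p.A * (θ + n) := by positivity
  constructor
  · calc (1 - p.rho) * p.amp d θ (p.idx m)
        = ((1 - p.rho) * |Real.sin (π * θ)|) / (π * (θ + n)) / Real.sqrt (p.δ * p.A * (θ + n)) ^ D := by
          simp only [amp, ← hn', D]
          ring
      _ ≤ |Real.sin (π * x)| / (π * (x + n)) / Real.sqrt (p.δ * p.A * (x + n)) ^ D := by
          refine div_le_div₀ (by positivity) (div_le_div₀ (abs_nonneg _) hsl (by positivity)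
            (mul_le_mul_of_nonneg_left (by linarith) Real.pi_pos.le)) (by positivity)
            (pow_le_pow_left₀ (Real.sqrt_nonneg _) (Real.sqrt_le_sqrt
              (mul_le_mul_of_nonneg_left (by linarith) (by positivity))) _)
      _ = p.amp d x (p.idx m) := rfl
  · have h1 : p.amp d x (p.idx m) ≤
        (1 + p.rho) * (1 + p.δ) * Real.sqrt (1 + p.δ) ^ D * p.amp d θ (p.idx m) := by
      have hs : Real.sqrt (p.δ * p.A * (θ + n)) ^ D / Real.sqrt (1 + p.δ) ^ D ≤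
          Real.sqrt (p.δ * p.A * (x + n)) ^ D := by
        rw [div_le_iff₀ (by positivity), ← mul_pow, ← Real.sqrt_mul hμx.le]
        exact pow_le_pow_left₀ (Real.sqrt_nonneg _) (Real.sqrt_le_sqrt
          (le_of_le_of_eq (mul_le_mul_of_nonneg_left hratio (by positivity)) (by ring))) _
      have hl : π * (θ + n) / (1 + p.δ) ≤ π * (x + n) := by
        rw [div_le_iff₀ (by linarith)]
        exact le_of_le_of_eq (mul_le_mul_of_nonneg_left hratio Real.pi_pos.le) (by ring)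
      calc p.amp d x (p.idx m)
          = |Real.sin (π * x)| / (π * (x + n)) / Real.sqrt (p.δ * p.A * (x + n)) ^ D := rfl
        _ ≤ (1 + p.rho) * |Real.sin (π * θ)| / (π * (θ + n) / (1 + p.δ)) /
              (Real.sqrt (p.δ * p.A * (θ + n)) ^ D / Real.sqrt (1 + p.δ) ^ D) := by
            refine div_le_div₀ ?_ (div_le_div₀ ?_ hsu (by positivity) hl) (by positivity) hs
            · have := p.rho_nonneg; positivity
            · have := p.rho_nonneg; positivity
        _ = _ := by simp only [amp, ← hn', D]; field_simp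
    calc p.amp d x (p.idx m) * Real.sqrt (1 + 1 / p.mu0) ^ D
        ≤ (1 + p.rho) * (1 + p.δ) * Real.sqrt (1 + p.δ) ^ D * p.amp d θ (p.idx m) *
            Real.sqrt (1 + 1 / p.mu0) ^ D := mul_le_mul_of_nonneg_right h1 (by positivity)
      _ = _ := by simp only [cst, D]; ring

theorem amp_eq {θ : ℝ} (h0 : 0 < θ) (n : ℕ) :
    p.amp d θ n = ‖sinc θ n‖ / Real.sqrt (p.δ * p.A * (θ + n)) ^ (d + 1) := by
  have hpos : 0 < θ + ((n : ℤ) : ℝ) := by push_cast; positivity
  rw [norm_sinc hpos.ne', abs_of_pos hpos, Int.cast_natCast]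
  rfl

/-- The active weights of one alias are at most the square of its coefficient. -/
theorem sum_active_le {n : ℕ} {θ : ℝ} :
    ∑ m ∈ p.active d n θ, p.wt m ≤ ‖sinc θ n‖ ^ 2 := by
  classical
  rcases (p.active d n θ).eq_empty_or_nonempty with h | ⟨m0, hm0⟩
  · rw [h, sum_empty]
    positivity
  obtain ⟨hf0, hi0, harc0⟩ := p.mem_active.1 hm0
  obtain ⟨⟨hθa, hθb⟩, -⟩ := (p.mem_arc m0 θ).1 harc0
  have hθ : 0 < θ := lt_of_lt_of_le (by linarith [p.hlam]) hθa
  set μ := p.δ * p.A * (θ + n) with hμ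
  have hμ0 : p.mu0 ≤ μ := p.mu0_le n hθa
  have hμp : 0 < μ := lt_of_lt_of_le p.mu0_pos hμ0
  set c := ‖sinc θ n‖ ^ 2 / (μ * (1 + 1 / p.mu0)) ^ (d + 1) with hc
  have hterm : ∀ m ∈ p.active d n θ, p.wt m ≤ c := by
    intro m hm
    obtain ⟨hf, rfl, harc⟩ := p.mem_active.1 hm
    have hlt : p.idx m < p.N := (mem_filter.1 hf).2.2.1
    have hb := (p.amp_bounds harc hlt).2
    have hq : 0 < Real.sqrt (1 + 1 / p.mu0) ^ (d + 1) := by have := p.mu0_pos; positivity
    have hcp := p.cst_pos d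
    have h1 : p.amp d (p.lo m) (p.idx m) / p.cst d ≤
        p.amp d θ (p.idx m) / Real.sqrt (1 + 1 / p.mu0) ^ (d + 1) := by
      rw [div_le_div_iff₀ hcp hq]
      linarith
    have hx0 : 0 ≤ p.lo m := le_trans (by linarith [p.hlam]) (le_max_left _ _)
    have h0 : 0 ≤ p.amp d (p.lo m) (p.idx m) / p.cst d :=
      div_nonneg (div_nonneg (div_nonneg (abs_nonneg _) (by positivity)) (by positivity)) hcp.le
    refine (pow_le_pow_left₀ h0 h1 2).trans (le_of_eq ?_)
    rw [p.amp_eq hθ, hc, div_div, ← mul_pow, ← Real.sqrt_mul hμp.le, div_pow, ← pow_mul, mul_comm (d + 1) 2,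
      pow_mul, Real.sq_sqrt (by have := p.mu0_pos; positivity)]
  refine (sum_le_card_nsmul _ _ _ hterm).trans ?_
  rw [nsmul_eq_mul]
  have hcard : ((p.active d n θ).card : ℝ) ≤ (μ * (1 + 1 / p.mu0)) ^ (d + 1) := by
    refine le_trans (Nat.cast_le.2 (card_le_card p.active_subset_box))
      ((card_box_le d _ _ hμp.le).trans (pow_le_pow_left₀ (by positivity) ?_ _))
    rw [mul_add, mul_one, ← mul_div_assoc, mul_one]
    have : 1 ≤ μ / p.mu0 := (one_le_div p.mu0_pos).2 hμ0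
    linarith
  have hden : 0 < (μ * (1 + 1 / p.mu0)) ^ (d + 1) := by have := p.mu0_pos; positivity
  calc ((p.active d n θ).card : ℝ) * c ≤ (μ * (1 + 1 / p.mu0)) ^ (d + 1) * c :=
        mul_le_mul_of_nonneg_right hcard (by positivity)
    _ = _ := by rw [hc]; field_simp

/-- The error at one frequency, given that the primitive points of the range carry a mass at least `X`. -/
theorem error_le {n : ℕ} (hn : n < p.N) {θ : ℝ} (h1 : p.lam ≤ θ) (h2 : θ ≤ 1 - p.lam) (s : ℂ)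
    (hs : ‖s‖ = ‖sinc θ n‖) (e1 q : ℝ) (he1 : e1 ≤ 1) (hd : 1 ≤ d)
    (hμ4 : 4 ≤ p.mu0) (hA2 : 2 * (p.N : ℝ) * p.A ≤ p.mu0 ^ 2)
    (hchirp : ∀ a μ : ℝ, p.mu0 ≤ μ → 1 - e1 ≤ (∑ l ∈ Icc ⌈a⌉ ⌊a + μ⌋, ‖chirp a μ l‖) / Real.sqrt μ)
    (hq : 4 * (3 / 4 : ℝ) ^ (d - 1) ≤ q ^ 2) (hq0 : 0 ≤ q) :
    ∫ x in cube d, ‖s * ee (phase ((θ + n) * p.A) (p.δ * p.A * (θ + n)) x) -
        ∑ m ∈ p.active d n θ, (Real.sqrt (p.wt m) : ℂ) *
          unit (s * ∏ i, chirp ((θ + n) * p.A) (p.δ * p.A * (θ + n)) (m i)) * ee (dotR m x)‖ ^ 2 ≤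
      2 * ‖s‖ ^ 2 * (1 - (1 - p.rho) / p.cst d * ((1 - e1) ^ (d + 1) - q)) := by
  classical
  set a := (θ + n) * (p.A : ℝ) with ha
  set μ := p.δ * p.A * (θ + n) with hμ
  have hA := p.A_pos
  have hlam := p.hlam
  have hθ : 0 < θ := lt_of_lt_of_le hlam h1
  have hμ0 : p.mu0 ≤ μ := p.mu0_le n (by linarith)
  have hμp : 0 < μ := lt_of_lt_of_le p.mu0_pos hμ0
  have hsμ : 0 < Real.sqrt μ := Real.sqrt_pos.2 hμp
  set P := (box d a μ).filter fun m => Primitive m with hP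
  have hPA : P ⊆ p.active d n θ := fun m hm =>
    p.mem_active_of_box hn h1 h2 (mem_filter.1 hm).1 (mem_filter.1 hm).2
  set J : Vec d → ℂ := fun m => ∏ i, chirp a μ (m i) with hJ
  have hJn : ∀ m, ‖J m‖ = ∏ i, ‖chirp a μ (m i)‖ := fun m => norm_prod _ _
  have hmass : ((1 - e1) ^ (d + 1) - q) * Real.sqrt μ ^ (d + 1) ≤ ∑ m ∈ P, ‖J m‖ := by
    have htot : ∑ m ∈ box d a μ, ‖J m‖ = (∑ l ∈ Icc ⌈a⌉ ⌊a + μ⌋, ‖chirp a μ l‖) ^ (d + 1) := by
      simp only [hJn, box]
      rw [← Finset.prod_univ_sum (fun _ => Icc ⌈a⌉ ⌊a + μ⌋) fun _ l => ‖chirp a μ l‖, prod_const, card_univ,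
        Fintype.card_fin]
    have hlow : (1 - e1) ^ (d + 1) * Real.sqrt μ ^ (d + 1) ≤ ∑ m ∈ box d a μ, ‖J m‖ := by
      rw [htot, ← mul_pow]
      refine pow_le_pow_left₀ (mul_nonneg (by linarith) hsμ.le) ?_ _
      have := hchirp a μ hμ0
      rwa [le_div_iff₀ hsμ] at this
    set Z := (box d a μ).filter fun m => ¬ Primitive m with hZ
    have hsum : ∑ m ∈ P, ‖J m‖ + ∑ m ∈ Z, ‖J m‖ = ∑ m ∈ box d a μ, ‖J m‖ :=
      sum_filter_add_sum_filter_not _ _ _
    have hbad : ∑ m ∈ Z, ‖J m‖ ≤ q * Real.sqrt μ ^ (d + 1) := by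
      refine le_trans (Real.le_sqrt_of_sq_le ?_) (le_of_eq
        (Real.sqrt_sq (mul_nonneg hq0 (pow_nonneg hsμ.le _))))
      have hcs := sum_mul_sq_le_sq_mul_sq Z (fun _ => (1 : ℝ)) fun m => ‖J m‖
      simp only [one_mul, one_pow, sum_const, nsmul_eq_mul, mul_one] at hcs
      refine hcs.trans ?_
      have hb : ∑ m ∈ Z, ‖J m‖ ^ 2 ≤ 1 := by
        refine le_trans (sum_le_sum_of_subset_of_nonneg (filter_subset _ _) fun _ _ _ => by positivity) ?_
        simp only [hJn, ← prod_pow, box]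
        rw [← Finset.prod_univ_sum (fun _ => Icc ⌈a⌉ ⌊a + μ⌋) fun _ l => ‖chirp a μ l‖ ^ 2]
        exact prod_le_one (fun _ _ => sum_nonneg fun _ _ => by positivity)
          fun _ _ => sum_chirp_sq_le _ _ _
      have hnN : (n : ℝ) + 1 ≤ p.N := by exact_mod_cast hn
      have hcard := card_imprimitive_le hd a μ (mul_pos (by positivity) hA) (hμ4.trans hμ0) (2 * p.N * p.A)
        (by
          push_cast
          calc a + μ = (θ + n) * (1 + p.δ) * p.A := by rw [ha, hμ]; ring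
            _ ≤ p.N * 2 * p.A := mul_le_mul_of_nonneg_right (mul_le_mul (by linarith) (by linarith [p.hδ1])
                (by linarith [p.hδ]) (Nat.cast_nonneg _)) hA.le
            _ = _ := by ring)
      have h4 : 2 + 2 * ((2 * p.N * p.A : ℕ) : ℝ) / μ ^ 2 ≤ 4 := by
        have : ((2 * p.N * p.A : ℕ) : ℝ) ≤ μ ^ 2 := by
          push_cast
          exact hA2.trans (pow_le_pow_left₀ p.mu0_pos.le hμ0 2)
        have h5 : 2 * ((2 * p.N * p.A : ℕ) : ℝ) / μ ^ 2 ≤ 2 := by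
          rw [div_le_iff₀ (by positivity)]
          linarith
        linarith
      calc (Z.card : ℝ) * ∑ m ∈ Z, ‖J m‖ ^ 2 ≤ (Z.card : ℝ) :=
            mul_le_of_le_one_right (Nat.cast_nonneg _) hb
        _ ≤ μ ^ (d + 1) * ((3 / 4) ^ (d - 1) * (2 + 2 * ((2 * p.N * p.A : ℕ) : ℝ) / μ ^ 2)) := hcard
        _ ≤ μ ^ (d + 1) * q ^ 2 := by
            refine mul_le_mul_of_nonneg_left (le_trans ?_ hq) (by positivity)
            rw [mul_comm (4 : ℝ)]
            exact mul_le_mul_of_nonneg_left h4 (by positivity)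
        _ = _ := by rw [mul_pow q, ← pow_mul, mul_comm (d + 1) 2, pow_mul, Real.sq_sqrt hμp.le]; ring
    linarith
  rw [integral_cube_error]
  have hwt : ∀ m : Vec d, 0 ≤ p.wt m := fun m => sq_nonneg _
  have hc2 : ∑ m ∈ p.active d n θ, ‖(Real.sqrt (p.wt m) : ℂ) * unit (s * J m)‖ ^ 2 ≤ ‖s‖ ^ 2 := by
    simp only [norm_mul, norm_unit, mul_one, Complex.norm_real, Real.norm_eq_abs,
      abs_of_nonneg (Real.sqrt_nonneg _), Real.sq_sqrt (hwt _), hs]
    exact p.sum_active_le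
  have hre : ∀ m, ((starRingEnd ℂ) ((Real.sqrt (p.wt m) : ℂ) * unit (s * J m)) * (s * J m)).re =
      Real.sqrt (p.wt m) * (‖s‖ * ‖J m‖) := by
    intro m
    rw [map_mul, Complex.conj_ofReal, mul_assoc, conj_unit_mul, ← norm_mul, ← Complex.ofReal_mul,
      Complex.ofReal_re]
  have hcross : (1 - p.rho) / p.cst d * ((1 - e1) ^ (d + 1) - q) * ‖s‖ ^ 2 ≤
      ∑ m ∈ p.active d n θ, ((starRingEnd ℂ) ((Real.sqrt (p.wt m) : ℂ) * unit (s * J m)) * (s * J m)).re := by
    simp only [hre]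
    refine le_trans ?_ (sum_le_sum_of_subset_of_nonneg hPA fun m _ _ => by positivity)
    set k := (1 - p.rho) / p.cst d * ‖s‖ ^ 2 / Real.sqrt μ ^ (d + 1) with hk
    have hρ : 0 ≤ 1 - p.rho := sub_nonneg.2 p.hρ.le
    have hcp := p.cst_pos d
    have hk0 : 0 ≤ k := by positivity
    have hlow : ∀ m ∈ P, k * ‖J m‖ ≤ Real.sqrt (p.wt m) * (‖s‖ * ‖J m‖) := by
      intro m hm
      obtain ⟨hf, hidx, harc⟩ := p.mem_active.1 (hPA hm)
      have hb := (p.amp_bounds harc (hidx ▸ hn)).1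
      rw [hidx, p.amp_eq hθ, ← hs, ← hμ] at hb
      have hx0 : 0 ≤ p.lo m := le_trans (by linarith) (le_max_left _ _)
      have hamp : 0 ≤ p.amp d (p.lo m) n / p.cst d :=
        div_nonneg (div_nonneg (div_nonneg (abs_nonneg _) (by positivity)) (by positivity)) hcp.le
      have hsq : Real.sqrt (p.wt m) = p.amp d (p.lo m) n / p.cst d := by
        rw [wt, hidx, Real.sqrt_sq hamp]
      rw [← mul_assoc, hsq]
      refine mul_le_mul_of_nonneg_right ?_ (norm_nonneg _)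
      calc k = (1 - p.rho) * (‖s‖ / Real.sqrt μ ^ (d + 1)) / p.cst d * ‖s‖ := by rw [hk]; field_simp
        _ ≤ _ := mul_le_mul_of_nonneg_right (div_le_div_of_nonneg_right hb hcp.le) (norm_nonneg _)
    refine le_trans ?_ (sum_le_sum hlow)
    rw [← mul_sum]
    refine le_trans (le_of_eq ?_) (mul_le_mul_of_nonneg_left hmass hk0)
    rw [hk]
    field_simp
  linarith

end Param

end

end Vale.Agent.P130.Flat.Wave
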