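import Mathlib

/-!
P130, waveform: the Fourier coefficients of `t ↦ e(-θ t)` on the unit interval and the truncation of `e(θ ⌊y⌋)`.
-/

namespace Vale.Agent.P130.Flat.Wave

open Finset MeasureTheory
open scoped Real

noncomputable section

/-- The character `e(x) = exp(2 π i x)`. -/
def ee (x : ℝ) : ℂ := Complex.exp (((2 * π * x : ℝ) : ℂ) * Complex.I)

theorem norm_ee (x : ℝ) : ‖ee x‖ = 1 := Complex.norm_exp_ofReal_mul_I _

theorem ee_add (x y : ℝ) : ee (x + y) = ee x * ee y := by
  rw [ee, ee, ee, ← Complex.exp_add]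
  congr 1
  push_cast
  ring

theorem ee_zero : ee 0 = 1 := by simp [ee]

theorem ee_int (k : ℤ) : ee k = 1 := by
  rw [ee]
  convert Complex.exp_int_mul_two_pi_mul_I k using 2
  push_cast
  ring

theorem continuous_ee : Continuous ee := by
  unfold ee
  fun_prop

/-- The coefficient `∫₀¹ e(-(θ+n) t) dt`. -/
def sinc (θ : ℝ) (n : ℤ) : ℂ := ∫ t in (0 : ℝ)..1, ee (-(θ + n) * t)

/-- The truncation range. -/
def range0 (N : ℕ) : Finset ℤ := Icc (-(N : ℤ)) ((N : ℤ) - 1)

theorem norm_sinc {θ : ℝ} {n : ℤ} (h : θ + n ≠ 0) :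
    ‖sinc θ n‖ = |Real.sin (π * θ)| / (π * |θ + n|) := by
  set l : ℝ := θ + n with hl
  have hc : ((2 * π * -l : ℝ) : ℂ) * Complex.I ≠ 0 := by
    simp [Real.pi_ne_zero, h]
  have hs : sinc θ n =
      (Complex.exp (((2 * π * -l : ℝ) : ℂ) * Complex.I) - 1) / (((2 * π * -l : ℝ) : ℂ) * Complex.I) := by
    have := integral_exp_mul_complex (a := (0 : ℝ)) (b := 1) hc
    simp only [Complex.ofReal_one, mul_one, Complex.ofReal_zero, mul_zero, Complex.exp_zero] at this
    rw [← this]
    refine intervalIntegral.integral_congr fun t _ => ?_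
    simp only [ee, hl]
    congr 1
    push_cast
    ring
  have hsin : |Real.sin (π * l)| = |Real.sin (π * θ)| := by
    rw [hl, mul_add, mul_comm π (n : ℝ), Real.sin_add_int_mul_pi, abs_mul, abs_zpow, abs_neg, abs_one,
      one_zpow, one_mul]
  rw [hs, norm_div, mul_comm ((2 * π * -l : ℝ) : ℂ) Complex.I, Complex.norm_exp_I_mul_ofReal_sub_one,
    norm_mul, norm_mul, Complex.norm_I, Complex.norm_real, one_mul, Real.norm_eq_abs, Real.norm_eq_abs,
    show 2 * π * -l / 2 = -(π * l) by ring, Real.sin_neg]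
  simp only [norm_mul, norm_neg, Real.norm_eq_abs, abs_neg, abs_of_pos Real.pi_pos, hsin, abs_two]
  field_simp

/-- Fourier coefficients of `t ↦ e(-θ t)`. -/
theorem fourierCoeffOn_ee (θ : ℝ) (n : ℤ) :
    fourierCoeffOn (zero_lt_one' ℝ) (fun t => ee (-θ * t)) n = sinc θ n := by
  rw [fourierCoeffOn_eq_integral, sub_zero, one_div, inv_one, one_smul, sinc]
  refine intervalIntegral.integral_congr fun t _ => ?_
  simp only [fourier_coe_apply, smul_eq_mul, ee, ← Complex.exp_add]
  congr 1
  push_cast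
  ring

/-- Parseval for the coefficients. -/
theorem hasSum_sinc (θ : ℝ) : HasSum (fun n => ‖sinc θ n‖ ^ 2) 1 := by
  have hc : Continuous fun t => ee (-θ * t) := continuous_ee.comp (by fun_prop)
  have hm : MemLp (fun t => ee (-θ * t)) 2 (volume.restrict (Set.Ioc (0 : ℝ) 1)) := by
    have : IsFiniteMeasure (volume.restrict (Set.Ioc (0 : ℝ) 1)) :=
      ⟨by rw [Measure.restrict_apply_univ]; exact measure_Ioc_lt_top⟩
    exact MemLp.of_bound hc.aestronglyMeasurable 1 (Filter.Eventually.of_forall fun t => (norm_ee _).le)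
  have h := hasSum_sq_fourierCoeffOn (zero_lt_one' ℝ) hm
  simp only [fourierCoeffOn_ee, norm_ee, one_pow, intervalIntegral.integral_const, sub_zero, inv_one,
    one_smul] at h
  exact h

/-- The truncated range carries all but `1 / N` of the mass. -/
theorem sum_sinc_ge {θ : ℝ} (h0 : 0 < θ) (h1 : θ < 1) {N : ℕ} (hN : 1 ≤ N) :
    1 - 1 / (N : ℝ) ≤ ∑ n ∈ range0 N, ‖sinc θ n‖ ^ 2 := by
  have key : ∀ M : ℕ, N ≤ M → ∑ n ∈ range0 M, ‖sinc θ n‖ ^ 2 + 1 / (M : ℝ) ≤
      ∑ n ∈ range0 N, ‖sinc θ n‖ ^ 2 + 1 / (N : ℝ) := by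
    intro M hM
    induction M, hM using Nat.le_induction with
    | base => exact le_rfl
    | succ M hM ih =>
      have hs : range0 (M + 1) = insert (-(M : ℤ) - 1) (insert (M : ℤ) (range0 M)) := by
        ext x
        simp only [range0, mem_Icc, mem_insert]
        omega
      rw [hs, sum_insert (by simp only [range0, mem_insert, mem_Icc]; omega),
        sum_insert (by simp only [range0, mem_Icc]; omega)]
      have hM1 : (1 : ℝ) ≤ M := by exact_mod_cast hN.trans hM
      have hb : ∀ n : ℤ, (M : ℝ) ≤ |θ + n| → ‖sinc θ n‖ ^ 2 ≤ 1 / (9 * (M : ℝ) ^ 2) := by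
        intro n hn
        have hne : θ + n ≠ 0 := fun e => by rw [e, abs_zero] at hn; linarith
        rw [norm_sinc hne]
        have hle : |Real.sin (π * θ)| / (π * |θ + n|) ≤ 1 / (3 * M) :=
          div_le_div₀ zero_le_one (Real.abs_sin_le_one _) (by positivity)
            (mul_le_mul Real.pi_gt_three.le hn (by positivity) Real.pi_pos.le)
        calc (|Real.sin (π * θ)| / (π * |θ + n|)) ^ 2 ≤ (1 / (3 * M)) ^ 2 :=
              pow_le_pow_left₀ (by positivity) hle 2
          _ = 1 / (9 * (M : ℝ) ^ 2) := by ring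
      have e1 := hb (-(M : ℤ) - 1) (by push_cast; exact le_abs.2 (Or.inr (by linarith)))
      have e2 := hb (M : ℤ) (by push_cast; exact le_abs.2 (Or.inl (by linarith)))
      have e3 : 2 / (9 * (M : ℝ) ^ 2) + 1 / ((M + 1 : ℕ) : ℝ) ≤ 1 / M := by
        push_cast
        rw [div_add_div _ _ (by positivity) (by positivity), div_le_div_iff₀ (by positivity) (by positivity)]
        nlinarith
      have e4 : 2 / (9 * (M : ℝ) ^ 2) = 1 / (9 * (M : ℝ) ^ 2) + 1 / (9 * (M : ℝ) ^ 2) := by ring
      linarith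
  have hlim : Filter.Tendsto (fun M : ℕ => ∑ n ∈ range0 M, ‖sinc θ n‖ ^ 2) Filter.atTop (nhds 1) := by
    refine (hasSum_sinc θ).comp (Filter.tendsto_atTop_finset_of_monotone ?_ fun x => ?_)
    · intro a b hab x hx
      simp only [range0, mem_Icc] at hx ⊢
      omega
    · exact ⟨x.natAbs + 1, by simp only [range0, mem_Icc]; omega⟩
  have hle : (1 : ℝ) ≤ ∑ n ∈ range0 N, ‖sinc θ n‖ ^ 2 + 1 / (N : ℝ) :=
    le_of_tendsto hlim (Filter.eventually_atTop.2 ⟨N, fun M hM => by
      have := key M hM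
      have : 0 ≤ 1 / (M : ℝ) := by positivity
      linarith⟩)
  linarith

/-- The error of a truncation over one period. -/
theorem integral_trunc (θ : ℝ) (F : Finset ℤ) :
    ∫ t in (0 : ℝ)..1, ‖ee (-θ * t) - ∑ n ∈ F, sinc θ n * ee (n * t)‖ ^ 2 =
      1 - ∑ n ∈ F, ‖sinc θ n‖ ^ 2 := by
  set g : ℝ → ℂ := fun t => ee (-θ * t) - ∑ n ∈ F, sinc θ n * ee (n * t) with hg
  have hc : Continuous g := by
    simp only [hg, ee]
    fun_prop
  have hm : MemLp g 2 (volume.restrict (Set.Ioc (0 : ℝ) 1)) := by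
    obtain ⟨B, hB⟩ := isCompact_Icc.exists_bound_of_continuousOn (hc.continuousOn (s := Set.Icc (0 : ℝ) 1))
    have : IsFiniteMeasure (volume.restrict (Set.Ioc (0 : ℝ) 1)) :=
      ⟨by rw [Measure.restrict_apply_univ]; exact measure_Ioc_lt_top⟩
    refine MemLp.of_bound hc.aestronglyMeasurable B ?_
    filter_upwards [ae_restrict_mem measurableSet_Ioc] with t ht
    exact hB t (Set.Ioc_subset_Icc_self ht)
  have hco : ∀ k, fourierCoeffOn (zero_lt_one' ℝ) g k = if k ∈ F then 0 else sinc θ k := by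
    intro k
    rw [fourierCoeffOn_eq_integral, sub_zero, one_div, inv_one, one_smul]
    have e : ∀ t : ℝ, fourier (-k) (t : AddCircle (1 : ℝ)) • g t =
        ee (-(θ + k) * t) - ∑ n ∈ F, sinc θ n * ee (((n - k : ℤ) : ℝ) * t) := by
      intro t
      simp only [hg, fourier_coe_apply, smul_eq_mul, ee, mul_sub, Finset.mul_sum]
      congr 1
      · rw [← Complex.exp_add]
        congr 1
        push_cast
        ring
      · refine sum_congr rfl fun n _ => ?_
        rw [← mul_assoc, mul_comm _ (sinc θ n), mul_assoc, ← Complex.exp_add]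
        congr 2
        push_cast
        ring
    have orth : ∀ n : ℤ, ∫ t in (0 : ℝ)..1, ee (((n - k : ℤ) : ℝ) * t) = if n = k then 1 else 0 := by
      intro n
      by_cases hnk : n = k
      · simp [hnk, ee_zero]
      · rw [if_neg hnk]
        have hc' : ((2 * π * ((n - k : ℤ) : ℝ) : ℝ) : ℂ) * Complex.I ≠ 0 := by
          simp [Real.pi_ne_zero, sub_eq_zero, hnk]
        have h := integral_exp_mul_complex (a := (0 : ℝ)) (b := 1) hc'
        simp only [Complex.ofReal_one, mul_one, Complex.ofReal_zero, mul_zero, Complex.exp_zero] at h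
        have h1 : Complex.exp (((2 * π * ((n - k : ℤ) : ℝ) : ℝ) : ℂ) * Complex.I) = 1 := ee_int (n - k)
        rw [h1, sub_self, zero_div] at h
        rw [← h]
        refine intervalIntegral.integral_congr fun t _ => ?_
        simp only [ee]
        congr 1
        push_cast
        ring
    rw [intervalIntegral.integral_congr fun t _ => e t]
    rw [intervalIntegral.integral_sub (Continuous.intervalIntegrable (by unfold ee; fun_prop) _ _)
      (Continuous.intervalIntegrable (by unfold ee; fun_prop) _ _),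
      intervalIntegral.integral_finsetSum fun n _ => Continuous.intervalIntegrable (by unfold ee; fun_prop) _ _]
    simp only [intervalIntegral.integral_const_mul, orth, mul_ite, mul_one, mul_zero, sum_ite_eq']
    split_ifs <;> simp [sinc]
  have h := hasSum_sq_fourierCoeffOn (zero_lt_one' ℝ) hm
  simp only [hco, sub_zero, inv_one, one_smul] at h
  have hF : HasSum (fun k => if k ∈ F then ‖sinc θ k‖ ^ 2 else 0) (∑ n ∈ F, ‖sinc θ n‖ ^ 2) := by
    have : HasSum (fun k => if k ∈ F then ‖sinc θ k‖ ^ 2 else 0)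
        (∑ k ∈ F, if k ∈ F then ‖sinc θ k‖ ^ 2 else 0) :=
      hasSum_sum_of_ne_finset_zero fun k hk => if_neg hk
    simpa [Finset.sum_ite_mem] using this
  have hd := (hasSum_sinc θ).sub hF
  have heq : (fun k => ‖if k ∈ F then (0 : ℂ) else sinc θ k‖ ^ 2) =
      fun k => ‖sinc θ k‖ ^ 2 - if k ∈ F then ‖sinc θ k‖ ^ 2 else 0 := by
    funext k
    by_cases hk : k ∈ F <;> simp [hk]
  rw [heq] at h
  exact h.unique hd

end

end Vale.Agent.P130.Flat.Wave
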