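import Vale.Agent.P110.Ultraflat.Fresnel
import Vale.Agent.P130.Flat.Wave.Sinc

/-!
P130, waveform: the Fourier coefficients of a chirp fill its frequency range with modulus `μ ^ (-1/2)`.
-/

namespace Vale.Agent.P130.Flat.Wave

open Finset MeasureTheory
open scoped Real
open Vale.Agent.P110.Ultra

noncomputable section

/-- The coefficient `∫₀¹ e(a x + μ x²/2 - l x) dx` of a chirp of range `[a, a + μ]`. -/
def chirp (a μ : ℝ) (l : ℤ) : ℂ := ∫ x in (0 : ℝ)..1, ee (a * x + μ * x ^ 2 / 2 - l * x)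

/-- Bessel's inequality for the coefficients of a chirp. -/
theorem sum_chirp_sq_le (a μ : ℝ) (T : Finset ℤ) : ∑ l ∈ T, ‖chirp a μ l‖ ^ 2 ≤ 1 := by
  set g : ℝ → ℂ := fun x => ee (a * x + μ * x ^ 2 / 2) with hg
  have hc : Continuous g := continuous_ee.comp (by fun_prop)
  have hm : MemLp g 2 (volume.restrict (Set.Ioc (0 : ℝ) 1)) := by
    have : IsFiniteMeasure (volume.restrict (Set.Ioc (0 : ℝ) 1)) :=
      ⟨by rw [Measure.restrict_apply_univ]; exact measure_Ioc_lt_top⟩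
    exact MemLp.of_bound hc.aestronglyMeasurable 1 (Filter.Eventually.of_forall fun t => (norm_ee _).le)
  have hco : ∀ l, fourierCoeffOn (zero_lt_one' ℝ) g l = chirp a μ l := by
    intro l
    rw [fourierCoeffOn_eq_integral, sub_zero, one_div, inv_one, one_smul, chirp]
    refine intervalIntegral.integral_congr fun x _ => ?_
    simp only [fourier_coe_apply, smul_eq_mul, hg, ee, ← Complex.exp_add]
    congr 1
    push_cast
    ring
  have h := hasSum_sq_fourierCoeffOn (zero_lt_one' ℝ) hm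
  have hn : ∀ x, ‖g x‖ = 1 := fun x => norm_ee _
  simp only [hco, hn, one_pow, intervalIntegral.integral_const, sub_zero, inv_one,
    one_smul] at h
  exact sum_le_hasSum T (fun l _ => by positivity) h

/-- Inside the range, away from its ends, the coefficient has modulus close to `μ ^ (-1/2)`. -/
theorem exists_chirp_ge : ∃ C : ℝ, 0 < C ∧ ∀ a μ r : ℝ, 0 < μ → 0 < r → ∀ l : ℤ,
    a + r ≤ l → (l : ℝ) + r ≤ a + μ → 1 - C * Real.sqrt μ / r ≤ Real.sqrt μ * ‖chirp a μ l‖ := by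
  obtain ⟨⟨C, hC0, hC, -⟩, hpiece⟩ := fresnelStmt
  refine ⟨2 * C, by positivity, fun a μ r hμ hr l h1 h2 => ?_⟩
  set σ : ℝ := 2 * π * μ with hσ
  set u : ℝ := 2 * π * a with hu
  set k : ℝ := 2 * π * l with hk
  have hσ0 : 0 < σ := by positivity
  have hpi := Real.pi_gt_three
  have hsμ : 0 < Real.sqrt μ := Real.sqrt_pos.2 hμ
  have hJ : chirp a μ l = ∫ x in (0 : ℝ)..1,
      Complex.exp (((0 + ((1 : ℕ) : ℝ) * (u * (x - 0) + σ * (x - 0) ^ 2 / 2) - k * x : ℝ) : ℂ) *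
        Complex.I) := by
    refine intervalIntegral.integral_congr fun x _ => ?_
    simp only [ee, hu, hσ, hk]
    congr 1
    push_cast
    ring
  have hp := hpiece 1 σ u 0 0 1 k one_pos hσ0.ne' zero_le_one
  rw [← hJ] at hp
  have hin : inWeight (((1 : ℕ) : ℝ) * u) (((1 : ℕ) : ℝ) * (u + σ * (1 - 0))) k = 1 := by
    have e1 : 0 < ((1 : ℕ) : ℝ) * (u + σ * (1 - 0)) - k := by
      simp only [Nat.cast_one, one_mul, sub_zero, mul_one, hu, hσ, hk]
      nlinarith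
    have e2 : ((1 : ℕ) : ℝ) * u - k < 0 := by
      simp only [Nat.cast_one, one_mul, hu, hk]
      nlinarith
    rw [inWeight, Real.sign_of_pos e1, Real.sign_of_neg e2]
    norm_num
  rw [hin, Complex.ofReal_one, one_mul] at hp
  have hamp : ampl σ = (2 * π)⁻¹ / Real.sqrt μ := by
    rw [ampl, abs_of_pos hσ0, hσ, show 2 * π * (2 * π * μ) = (2 * π) ^ 2 * μ by ring,
      Real.sqrt_mul (by positivity), Real.sqrt_sq (by positivity)]
    field_simp
  have hamp0 : 0 < ampl σ := by rw [hamp]; positivity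
  have hstat : ‖statTerm 1 σ u (0 - k * 0) k‖ = ampl σ := by
    rw [statTerm, norm_mul, Complex.norm_exp_ofReal_mul_I, mul_one, Complex.norm_real,
      Real.norm_eq_abs, abs_of_pos hamp0]
  have hz : ∀ D : ℝ, 2 * π * r ≤ |D| → ∀ φ v : ℝ, ((1 : ℕ) : ℝ) * v - k = D →
      ‖endTerm 1 σ v φ k‖ ≤ ampl σ * (C * Real.sqrt μ / r) := by
    intro D hD φ v hv
    rw [endTerm, if_pos hσ0, norm_mul, norm_mul, Complex.norm_exp_ofReal_mul_I, mul_one,
      Complex.norm_real, Real.norm_eq_abs, abs_of_pos hamp0]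
    refine mul_le_mul_of_nonneg_left ?_ hamp0.le
    set z := (((1 : ℕ) : ℝ) * v - k) / Real.sqrt (2 * ((1 : ℕ) : ℝ) * |σ|) with hzdef
    have hzr : r / Real.sqrt μ ≤ |z| := by
      have hs : Real.sqrt (2 * ((1 : ℕ) : ℝ) * |σ|) ≤ 2 * π * Real.sqrt μ := by
        rw [Nat.cast_one, mul_one, abs_of_pos hσ0, hσ]
        calc Real.sqrt (2 * (2 * π * μ)) ≤ Real.sqrt ((2 * π) ^ 2 * μ) :=
              Real.sqrt_le_sqrt (by nlinarith [mul_pos hμ Real.pi_pos])
          _ = 2 * π * Real.sqrt μ := by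
            rw [Real.sqrt_mul (by positivity), Real.sqrt_sq (by positivity)]
      rw [hzdef, hv, abs_div, abs_of_nonneg (Real.sqrt_nonneg _), div_le_div_iff₀ hsμ
        (Real.sqrt_pos.2 (by positivity))]
      calc r * Real.sqrt (2 * ((1 : ℕ) : ℝ) * |σ|) ≤ r * (2 * π * Real.sqrt μ) :=
            mul_le_mul_of_nonneg_left hs hr.le
        _ = 2 * π * r * Real.sqrt μ := by ring
        _ ≤ |D| * Real.sqrt μ := mul_le_mul_of_nonneg_right hD hsμ.le
    have h3 := (hC z).2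
    have h5 : r / Real.sqrt μ * ‖fresW z‖ ≤ C :=
      le_trans (mul_le_mul_of_nonneg_right hzr (norm_nonneg _)) h3
    rw [le_div_iff₀ hr]
    rw [div_mul_eq_mul_div, div_le_iff₀ hsμ] at h5
    linarith
  have he1 := hz (u - k) (by
    rw [show u - k = -(2 * π * ((l : ℝ) - a)) by rw [hu, hk]; ring, abs_neg,
      abs_of_nonneg (by nlinarith)]
    nlinarith) (0 - k * 0) u (by simp)
  have he2 := hz (u + σ * (1 - 0) - k) (by
    rw [show u + σ * (1 - 0) - k = 2 * π * (a + μ - l) by rw [hu, hσ, hk]; ring,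
      abs_of_nonneg (by nlinarith)]
    nlinarith) (0 + ((1 : ℕ) : ℝ) * (u * (1 - 0) + σ * (1 - 0) ^ 2 / 2) - k * 1) (u + σ * (1 - 0))
    (by simp)
  have hn : ‖((Real.sqrt ((1 : ℕ) : ℝ) / (2 * π) : ℝ) : ℂ) * chirp a μ l‖ =
      (2 * π)⁻¹ * ‖chirp a μ l‖ := by
    rw [norm_mul, Complex.norm_real, Real.norm_eq_abs]
    simp [abs_of_pos Real.pi_pos, mul_comm]
  rw [hp] at hn
  have h4 : ampl σ - 2 * (ampl σ * (C * Real.sqrt μ / r)) ≤ (2 * π)⁻¹ * ‖chirp a μ l‖ := by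
    rw [← hn]
    have t1 := norm_sub_norm_le
      (statTerm 1 σ u (0 - k * 0) k + endTerm 1 σ (u + σ * (1 - 0))
        (0 + ((1 : ℕ) : ℝ) * (u * (1 - 0) + σ * (1 - 0) ^ 2 / 2) - k * 1) k)
      (endTerm 1 σ u (0 - k * 0) k)
    have t2 := norm_sub_norm_le (statTerm 1 σ u (0 - k * 0) k)
      (-(endTerm 1 σ (u + σ * (1 - 0))
        (0 + ((1 : ℕ) : ℝ) * (u * (1 - 0) + σ * (1 - 0) ^ 2 / 2) - k * 1) k))
    rw [sub_neg_eq_add, norm_neg] at t2
    linarith [hstat]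
  rw [hamp] at h4
  have hpos : 0 < 2 * π := by positivity
  have h6 := mul_le_mul_of_nonneg_left h4 (show 0 ≤ 2 * π * Real.sqrt μ by positivity)
  calc 1 - 2 * C * Real.sqrt μ / r
      = 2 * π * Real.sqrt μ * ((2 * π)⁻¹ / Real.sqrt μ -
          2 * ((2 * π)⁻¹ / Real.sqrt μ * (C * Real.sqrt μ / r))) := by field_simp
    _ ≤ 2 * π * Real.sqrt μ * ((2 * π)⁻¹ * ‖chirp a μ l‖) := h6
    _ = Real.sqrt μ * ‖chirp a μ l‖ := by field_simp

/-- The range carries almost all of the `ℓ¹` mass that a flat sequence would. -/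
theorem exists_sum_chirp_ge (e : ℝ) (he : 0 < e) : ∃ μ0 : ℝ, 1 ≤ μ0 ∧ ∀ a μ : ℝ, μ0 ≤ μ →
    1 - e ≤ (∑ l ∈ Icc ⌈a⌉ ⌊a + μ⌋, ‖chirp a μ l‖) / Real.sqrt μ := by
  obtain ⟨C, hC, hge⟩ := exists_chirp_ge
  set t : ℝ := max 2 ((2 * C + 8) / e) with ht
  have ht2 : 2 ≤ t := le_max_left _ _
  have hte : (2 * C + 8) ≤ t * e := (div_le_iff₀ he).1 (le_max_right _ _)
  refine ⟨t ^ 4, one_le_pow₀ (by linarith), fun a μ hμ => ?_⟩
  have hμ0 : 0 < μ := lt_of_lt_of_le (by positivity) hμ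
  set s := Real.sqrt μ with hs
  have hs0 : 0 < s := Real.sqrt_pos.2 hμ0
  have hs2 : s ^ 2 = μ := Real.sq_sqrt hμ0.le
  have hst : t ^ 2 ≤ s := by
    rw [hs, show t ^ 2 = Real.sqrt (t ^ 4) by
      rw [show t ^ 4 = (t ^ 2) ^ 2 by ring, Real.sqrt_sq (by positivity)]]
    exact Real.sqrt_le_sqrt hμ
  set r : ℝ := μ / t with hr
  have hr0 : 0 < r := by positivity
  set I := Icc ⌈a + r⌉ ⌊a + μ - r⌋ with hI
  have hsub : I ⊆ Icc ⌈a⌉ ⌊a + μ⌋ :=
    Icc_subset_Icc (Int.ceil_mono (by linarith)) (Int.floor_mono (by linarith))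
  have hcard : μ - 2 * r - 2 ≤ (I.card : ℝ) := by
    rw [hI, Int.card_Icc]
    have h1 : ((⌊a + μ - r⌋ + 1 - ⌈a + r⌉ : ℤ) : ℝ) ≤
        (((⌊a + μ - r⌋ + 1 - ⌈a + r⌉).toNat : ℕ) : ℝ) := by
      exact_mod_cast Int.self_le_toNat _
    push_cast at h1
    linarith [Int.sub_one_lt_floor (a + μ - r), Int.ceil_lt_add_one (a + r)]
  have hterm : ∀ l ∈ I, (1 - C * t / s) / s ≤ ‖chirp a μ l‖ := by
    intro l hl
    rw [hI, mem_Icc] at hl
    have h := hge a μ r hμ0 hr0 l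
      ((Int.le_ceil _).trans (by exact_mod_cast hl.1))
      (by
        have : (l : ℝ) ≤ a + μ - r := le_trans (by exact_mod_cast hl.2) (Int.floor_le _)
        linarith)
    rw [div_le_iff₀ hs0, mul_comm ‖chirp a μ l‖]
    refine le_trans (le_of_eq ?_) h
    rw [← hs, hr, ← hs2]
    field_simp
  have hx : 0 ≤ 1 - C * t / s ∨ 1 - C * t / s < 0 := le_or_gt _ _
  have hts : t / s ≤ 1 / t := by
    rw [div_le_div_iff₀ hs0 (by linarith)]
    nlinarith
  have hct : C * t / s ≤ C / t := by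
    rw [mul_div_assoc, div_eq_mul_one_div C t]
    exact mul_le_mul_of_nonneg_left hts hC.le
  rw [le_div_iff₀ hs0]
  refine le_trans ?_ (sum_le_sum_of_subset_of_nonneg hsub fun _ _ _ => norm_nonneg _)
  rcases le_or_gt (1 : ℝ) e with he1 | he1
  · exact le_trans (mul_nonpos_of_nonpos_of_nonneg (by linarith) hs0.le)
      (sum_nonneg fun _ _ => norm_nonneg _)
  refine le_trans ?_ ((card_nsmul_le_sum _ _ _ hterm))
  rw [nsmul_eq_mul]
  have ht0 : 0 < t := by linarith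
  have hCt : C / t ≤ e / 2 := by rw [div_le_iff₀ ht0]; linarith
  have h4t : 4 / t ≤ e / 2 := by rw [div_le_iff₀ ht0]; linarith
  have hpos : 0 ≤ 1 - C * t / s := by linarith
  have h2μ : 2 ≤ 2 * μ / t := by
    rw [le_div_iff₀ ht0]
    have hμt : t ≤ μ := le_trans (le_self_pow₀ (by linarith) (by norm_num)) hμ
    linarith
  have hcard' : μ * (1 - 4 / t) ≤ (I.card : ℝ) := by
    refine le_trans ?_ hcard
    rw [hr]
    have : μ * (4 / t) = 4 * (μ / t) := by ring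
    have : 2 * μ / t = 2 * (μ / t) := by ring
    linarith
  refine le_trans ?_ (mul_le_mul_of_nonneg_right hcard' (div_nonneg hpos hs0.le))
  rw [← hs2, show s ^ 2 * (1 - 4 / t) * ((1 - C * t / s) / s) = ((1 - 4 / t) * (1 - C * t / s)) * s by
    field_simp]
  refine mul_le_mul_of_nonneg_right ?_ hs0.le
  nlinarith [mul_nonneg (show (0 : ℝ) ≤ 4 / t by positivity) (show (0 : ℝ) ≤ C * t / s by positivity)]

end

end Vale.Agent.P130.Flat.Wave
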