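import Vale.Agent.P130.Flat.Defs
import Vale.Agent.P130.Flat.Wave.Chirp

/-!
P130, waveform: integrals over the cube and the change of variable in the truncation error.
-/

namespace Vale.Agent.P130.Flat.Wave

open Finset MeasureTheory
open scoped Real
open Vale.Agent.P110.Ultra (Vec dotR)

noncomputable section

/-- Lebesgue measure of the cube as a product. -/
theorem restrict_cube (d : ℕ) :
    (volume : Measure (Fin (d + 1) → ℝ)).restrict (cube d) =
      Measure.pi fun _ => volume.restrict (Set.Ioc (0 : ℝ) 1) := by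
  rw [cube, volume_pi, Measure.restrict_pi_pi]
  simp [restrict_Ico_eq_restrict_Ioc]

instance : IsProbabilityMeasure (volume.restrict (Set.Ioc (0 : ℝ) 1)) :=
  ⟨by rw [Measure.restrict_apply_univ, Real.volume_Ioc, sub_zero, ENNReal.ofReal_one]⟩

theorem integral_cube_prod (d : ℕ) (g : Fin (d + 1) → ℝ → ℂ) :
    ∫ x in cube d, ∏ i, g i (x i) = ∏ i, ∫ t in (0 : ℝ)..1, g i t := by
  rw [restrict_cube, integral_fintype_prod_eq_prod]
  simp [intervalIntegral.integral_of_le zero_le_one]

theorem conj_ee (x : ℝ) : (starRingEnd ℂ) (ee x) = ee (-x) := by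
  rw [ee, ee, ← Complex.exp_conj, map_mul, Complex.conj_ofReal, Complex.conj_I]
  congr 1
  push_cast
  ring

theorem ee_sum {ι : Type*} (s : Finset ι) (g : ι → ℝ) : ee (∑ i ∈ s, g i) = ∏ i ∈ s, ee (g i) := by
  classical
  induction s using Finset.induction with
  | empty => simp [ee_zero]
  | insert i s hi ih => rw [sum_insert hi, prod_insert hi, ee_add, ih]

/-- The phase of the waveform at frequency `λ`, with `a = λ A` and `μ = λ A δ`. -/
def phase {d : ℕ} (a μ : ℝ) (x : Fin (d + 1) → ℝ) : ℝ := ∑ i, (a * x i + μ * x i ^ 2 / 2)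

theorem integral_ee_int (k : ℤ) : ∫ t in (0 : ℝ)..1, ee ((k : ℝ) * t) = if k = 0 then 1 else 0 := by
  by_cases hk : k = 0
  · simp [hk, ee_zero]
  · rw [if_neg hk]
    have hc : ((2 * π * (k : ℝ) : ℝ) : ℂ) * Complex.I ≠ 0 := by simp [Real.pi_ne_zero, hk]
    have h := integral_exp_mul_complex (a := (0 : ℝ)) (b := 1) hc
    simp only [Complex.ofReal_one, mul_one, Complex.ofReal_zero, mul_zero, Complex.exp_zero] at h
    have h1 : Complex.exp (((2 * π * (k : ℝ) : ℝ) : ℂ) * Complex.I) = 1 := ee_int k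
    rw [h1, sub_self, zero_div] at h
    rw [← h]
    refine intervalIntegral.integral_congr fun t _ => ?_
    simp only [ee]
    congr 1
    push_cast
    ring

theorem integral_cube_orth {d : ℕ} (m m' : Vec d) :
    ∫ x in cube d, ee (dotR m x) * (starRingEnd ℂ) (ee (dotR m' x)) = if m = m' then 1 else 0 := by
  classical
  have h : ∀ x : Fin (d + 1) → ℝ, ee (dotR m x) * (starRingEnd ℂ) (ee (dotR m' x)) =
      ∏ i, ee (((m i - m' i : ℤ) : ℝ) * x i) := fun x => by
    rw [conj_ee, ← ee_add, ← ee_sum]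
    congr 1
    simp only [dotR, ← sum_neg_distrib, ← sum_add_distrib]
    exact sum_congr rfl fun i _ => by push_cast; ring
  simp_rw [h]
  rw [integral_cube_prod d fun i t => ee (((m i - m' i : ℤ) : ℝ) * t)]
  simp only [integral_ee_int, sub_eq_zero]
  by_cases hm : m = m'
  · simp [hm]
  · obtain ⟨i, hi⟩ := Function.ne_iff.1 hm
    rw [if_neg hm, prod_eq_zero (mem_univ i) (if_neg hi)]

theorem integral_cube_coef {d : ℕ} (a μ : ℝ) (m : Vec d) :
    ∫ x in cube d, ee (phase a μ x) * (starRingEnd ℂ) (ee (dotR m x)) = ∏ i, chirp a μ (m i) := by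
  have h : ∀ x : Fin (d + 1) → ℝ, ee (phase a μ x) * (starRingEnd ℂ) (ee (dotR m x)) =
      ∏ i, ee (a * x i + μ * x i ^ 2 / 2 - m i * x i) := fun x => by
    rw [conj_ee, ← ee_add, ← ee_sum]
    congr 1
    simp only [phase, dotR, ← sum_neg_distrib, ← sum_add_distrib]
    exact sum_congr rfl fun i _ => by ring
  simp_rw [h]
  rw [integral_cube_prod d fun i t => ee (a * t + μ * t ^ 2 / 2 - m i * t)]
  rfl

theorem integrable_cube {d : ℕ} {g : (Fin (d + 1) → ℝ) → ℂ} (hg : Continuous g) :
    Integrable g (volume.restrict (cube d)) := by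
  refine ((hg.continuousOn.integrableOn_compact (isCompact_univ_pi fun _ => isCompact_Icc (a := (0 : ℝ))
    (b := 1))).mono_set ?_)
  exact Set.pi_mono fun _ _ => Set.Ico_subset_Icc_self

theorem continuous_dot {d : ℕ} (m : Vec d) : Continuous fun x : Fin (d + 1) → ℝ => ee (dotR m x) :=
  continuous_ee.comp (by unfold dotR; fun_prop)

theorem continuous_phase {d : ℕ} (a μ : ℝ) : Continuous fun x : Fin (d + 1) → ℝ => ee (phase a μ x) :=
  continuous_ee.comp (by unfold phase; fun_prop)

/-- The squared error of a finite approximation of the waveform at one frequency. -/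
theorem integral_cube_error {d : ℕ} (a μ : ℝ) (s : ℂ) (P : Finset (Vec d)) (c : Vec d → ℂ) :
    ∫ x in cube d, ‖s * ee (phase a μ x) - ∑ m ∈ P, c m * ee (dotR m x)‖ ^ 2 =
      ‖s‖ ^ 2 + ∑ m ∈ P, ‖c m‖ ^ 2 -
        2 * ∑ m ∈ P, ((starRingEnd ℂ) (c m) * (s * ∏ i, chirp a μ (m i))).re := by
  classical
  set φ : (Fin (d + 1) → ℝ) → ℂ := fun x => ee (phase a μ x) with hφ
  set T : (Fin (d + 1) → ℝ) → ℂ := fun x => ∑ m ∈ P, c m * ee (dotR m x) with hT
  have hφc : Continuous φ := continuous_phase a μ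
  have hTc : Continuous T := continuous_finsetSum _ fun m _ => continuous_const.mul (continuous_dot m)
  have hpt : ∀ x, (‖s * φ x - T x‖ ^ 2 : ℝ) =
      (‖s‖ ^ 2 : ℝ) + (T x * (starRingEnd ℂ) (T x)).re - 2 * (s * φ x * (starRingEnd ℂ) (T x)).re := by
    intro x
    have hT2 : (T x * (starRingEnd ℂ) (T x)).re = Complex.normSq (T x) := by
      rw [Complex.mul_conj, Complex.ofReal_re]
    rw [Complex.sq_norm, Complex.normSq_sub, hT2, Complex.normSq_mul, ← Complex.sq_norm s,
      ← Complex.sq_norm (φ x), hφ, norm_ee, one_pow, mul_one]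
  have hTT : ∫ x in cube d, T x * (starRingEnd ℂ) (T x) = ((∑ m ∈ P, ‖c m‖ ^ 2 : ℝ) : ℂ) := by
    have h : ∀ x, T x * (starRingEnd ℂ) (T x) = ∑ m ∈ P, ∑ m' ∈ P,
        c m * (starRingEnd ℂ) (c m') * (ee (dotR m x) * (starRingEnd ℂ) (ee (dotR m' x))) := fun x => by
      simp only [hT, map_sum, map_mul, sum_mul, mul_sum]
      rw [sum_comm]
      exact sum_congr rfl fun m _ => sum_congr rfl fun m' _ => by ring
    simp_rw [h]
    rw [integral_finsetSum]
    swap
    · exact fun m _ => integrable_cube (continuous_finsetSum _ fun m' _ =>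
        continuous_const.mul ((continuous_dot m).mul (Complex.continuous_conj.comp (continuous_dot m'))))
    push_cast
    refine sum_congr rfl fun m hm => ?_
    rw [integral_finsetSum]
    swap
    · exact fun m' _ => integrable_cube
        (continuous_const.mul ((continuous_dot m).mul (Complex.continuous_conj.comp (continuous_dot m'))))
    simp only [integral_const_mul, integral_cube_orth, mul_ite, mul_one, mul_zero, sum_ite_eq, hm, if_true]
    rw [Complex.mul_conj']
  have hφT : ∫ x in cube d, s * φ x * (starRingEnd ℂ) (T x) =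
      ∑ m ∈ P, (starRingEnd ℂ) (c m) * (s * ∏ i, chirp a μ (m i)) := by
    have h : ∀ x, s * φ x * (starRingEnd ℂ) (T x) =
        ∑ m ∈ P, (starRingEnd ℂ) (c m) * s * (φ x * (starRingEnd ℂ) (ee (dotR m x))) := fun x => by
      simp only [hT, map_sum, map_mul, mul_sum]
      exact sum_congr rfl fun m _ => by ring
    simp_rw [h]
    rw [integral_finsetSum]
    swap
    · exact fun m _ => integrable_cube
        (continuous_const.mul (hφc.mul (Complex.continuous_conj.comp (continuous_dot m))))
    refine sum_congr rfl fun m _ => ?_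
    rw [integral_const_mul, hφ, integral_cube_coef, mul_assoc]
  have i1 : Integrable (fun x => T x * (starRingEnd ℂ) (T x)) (volume.restrict (cube d)) :=
    integrable_cube (hTc.mul (Complex.continuous_conj.comp hTc))
  have i2 : Integrable (fun x => s * φ x * (starRingEnd ℂ) (T x)) (volume.restrict (cube d)) :=
    integrable_cube ((continuous_const.mul hφc).mul (Complex.continuous_conj.comp hTc))
  have : IsProbabilityMeasure (volume.restrict (cube d)) := by rw [restrict_cube]; infer_instance
  have i1' : Integrable (fun x => (T x * (starRingEnd ℂ) (T x)).re) (volume.restrict (cube d)) := i1.re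
  have i2' : Integrable (fun x => (s * φ x * (starRingEnd ℂ) (T x)).re) (volume.restrict (cube d)) := i2.re
  have r1 : ∫ x in cube d, (T x * (starRingEnd ℂ) (T x)).re = ∑ m ∈ P, ‖c m‖ ^ 2 := by
    have h := Complex.reCLM.integral_comp_comm i1
    simp only [Complex.reCLM_apply, hTT, Complex.ofReal_re] at h
    exact h
  have r2 : ∫ x in cube d, (s * φ x * (starRingEnd ℂ) (T x)).re =
      ∑ m ∈ P, ((starRingEnd ℂ) (c m) * (s * ∏ i, chirp a μ (m i))).re := by
    have h := Complex.reCLM.integral_comp_comm i2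
    simp only [Complex.reCLM_apply, hφT, Complex.re_sum] at h
    exact h
  show ∫ x in cube d, ‖s * φ x - T x‖ ^ 2 = _
  simp_rw [hpt]
  have i3 : Integrable (fun x => ‖s‖ ^ 2 + (T x * (starRingEnd ℂ) (T x)).re)
      (volume.restrict (cube d)) := (integrable_const _).add i1'
  rw [integral_sub i3 (i2'.const_mul 2), integral_add (integrable_const _) i1', integral_const_mul, r1, r2]
  simp

/-- Composition with an increasing quadratic map of slope at least `A` costs at most a factor two. -/
theorem integral_comp_le (A δ c : ℝ) (hA : 4 ≤ A) (hδ : 0 ≤ δ) (hδ1 : δ ≤ 1 / 2) (p : ℝ → ℝ)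
    (hm : Measurable p) (hp : Function.Periodic p 1) (h0 : ∀ y, 0 ≤ p y) (B : ℝ) (hB : ∀ y, p y ≤ B) :
    ∫ t in (0 : ℝ)..1, p (A * (t + δ * t ^ 2 / 2) + c) ≤ 2 * ∫ y in (0 : ℝ)..1, p y := by
  have hA0 : 0 < A := by linarith
  set u : ℝ → ℝ := fun t => A * (t + δ * t ^ 2 / 2) + c with hu
  set s := Set.Ioc (0 : ℝ) 1 with hs
  have hder : ∀ t ∈ s, HasDerivWithinAt u (A * (1 + δ * t)) s t := fun t _ => by
    have h1 : HasDerivAt (fun t : ℝ => t + δ * t ^ 2 / 2) (1 + δ * t) t := by
      have := (hasDerivAt_id t).add ((((hasDerivAt_pow 2 t).const_mul δ).div_const 2))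
      refine this.congr_deriv ?_
      simp
      ring
    exact ((h1.const_mul A).add_const c).hasDerivWithinAt
  have hmono : Set.InjOn u s := by
    intro x hx y hy hxy
    simp only [hu, add_left_inj, mul_eq_mul_left_iff, hA0.ne', or_false] at hxy
    have : (x - y) * (1 + δ * (x + y) / 2) = 0 := by linarith
    rcases mul_eq_zero.1 this with h | h
    · linarith
    · nlinarith [hx.1, hy.1]
  have hbd : ∀ y, ‖p y‖ ≤ B := fun y => by rw [Real.norm_of_nonneg (h0 y)]; exact hB y
  have hintI : ∀ a b : ℝ, IntervalIntegrable p volume a b := fun a b =>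
    intervalIntegrable_iff.2 (IntegrableOn.of_bound (by simp [Set.uIoc, Real.volume_Ioc])
      hm.aestronglyMeasurable B (Filter.Eventually.of_forall hbd))
  have himg := integral_image_eq_integral_abs_deriv_smul measurableSet_Ioc hder hmono p
  set K : ℕ := ⌈A * (1 + δ / 2)⌉₊ with hK
  have hsub : u '' s ⊆ Set.Ioc c (c + K) := by
    rintro _ ⟨t, ht, rfl⟩
    refine ⟨?_, ?_⟩
    · simp only [hu]
      nlinarith [ht.1, mul_pos hA0 ht.1, mul_nonneg (mul_nonneg hA0.le hδ) (sq_nonneg t)]
    · have := Nat.le_ceil (A * (1 + δ / 2))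
      have h2 : t + δ * t ^ 2 / 2 ≤ 1 + δ / 2 := by
        have : t ^ 2 ≤ 1 := by nlinarith [ht.1, ht.2]
        nlinarith [ht.2, mul_le_mul_of_nonneg_left this hδ]
      simp only [hu]
      have := mul_le_mul_of_nonneg_left h2 hA0.le
      linarith
  have hle : A * ∫ t in s, p (u t) ≤ ∫ t in s, |A * (1 + δ * t)| • p (u t) := by
    rw [← integral_const_mul]
    refine setIntegral_mono_on ?_ ?_ measurableSet_Ioc fun t ht => ?_
    · exact (IntegrableOn.of_bound measure_Ioc_lt_top
        (hm.comp (by fun_prop)).aestronglyMeasurable B (Filter.Eventually.of_forall fun t => hbd _)).const_mul A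
    · refine IntegrableOn.of_bound measure_Ioc_lt_top ?_ (A * (1 + δ) * B) ?_
      · exact (((by fun_prop : Measurable fun t : ℝ => |A * (1 + δ * t)|)).mul
          (hm.comp (by fun_prop))).aestronglyMeasurable
      · filter_upwards [ae_restrict_mem measurableSet_Ioc] with t ht
        rw [norm_smul, Real.norm_eq_abs, abs_abs, abs_of_nonneg (mul_nonneg hA0.le (add_nonneg zero_le_one (mul_nonneg hδ ht.1.le)))]
        exact mul_le_mul (by nlinarith [ht.1, ht.2, mul_le_mul_of_nonneg_left ht.2 hδ]) (hbd _)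
          (norm_nonneg _) (by positivity)
    · rw [smul_eq_mul, abs_of_nonneg (mul_nonneg hA0.le (add_nonneg zero_le_one (mul_nonneg hδ ht.1.le)))]
      exact mul_le_mul_of_nonneg_right (by nlinarith [ht.1, mul_nonneg (mul_nonneg hA0.le hδ) ht.1.le]) (h0 _)
  have hper : ∫ y in Set.Ioc c (c + K), p y = K * ∫ y in (0 : ℝ)..1, p y := by
    rw [← intervalIntegral.integral_of_le (by simp)]
    have h := hp.intervalIntegral_add_zsmul_eq (K : ℤ) c hintI
    simp only [zsmul_eq_mul, Int.cast_natCast, mul_one] at h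
    rw [h, hp.intervalIntegral_add_eq c 0, zero_add]
  have hup : ∫ y in u '' s, p y ≤ ∫ y in Set.Ioc c (c + K), p y :=
    setIntegral_mono_set (IntegrableOn.of_bound measure_Ioc_lt_top hm.aestronglyMeasurable B
      (Filter.Eventually.of_forall hbd)) (Filter.Eventually.of_forall fun y => h0 y)
      (Filter.Eventually.of_forall hsub)
  have hK2 : (K : ℝ) ≤ 2 * A := by
    have := Nat.ceil_lt_add_one (show 0 ≤ A * (1 + δ / 2) by positivity)
    rw [← hK] at this
    nlinarith [mul_le_mul_of_nonneg_left hδ1 hA0.le]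
  have hI0 : 0 ≤ ∫ y in (0 : ℝ)..1, p y := intervalIntegral.integral_nonneg zero_le_one fun y _ => h0 y
  rw [intervalIntegral.integral_of_le zero_le_one]
  rw [← himg] at hle
  have hAle : A * ∫ t in s, p (u t) ≤ A * (2 * ∫ y in (0 : ℝ)..1, p y) := by
    refine hle.trans (hup.trans ?_)
    rw [hper]
    calc (K : ℝ) * ∫ y in (0 : ℝ)..1, p y ≤ 2 * A * ∫ y in (0 : ℝ)..1, p y :=
          mul_le_mul_of_nonneg_right hK2 hI0
      _ = _ := by ring
  exact le_of_mul_le_mul_left hAle hA0

end

end Vale.Agent.P130.Flat.Wave
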